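import Vale.Agent.P254.LqQuot.Pins
import Vale.Agent.P254.LpSub.LowMoment

/-!
P254, quotients of `L_q`: the fourth moment of a marginal of a symmetric convex body is at most six
times the square of the second one, by iterated integrals of the log-concave tail.
-/

noncomputable section

open MeasureTheory Set
open scoped ENNReal

namespace Vale.Agent.P254.LqQuot

namespace FourAux

variable {n : ℕ}

lemma tail_antitone (K : Set (Fin n → ℝ)) (i : Fin n) : Antitone fun s => tail K i s :=
  fun _ _ hab => measure_mono (inter_subset_inter_right _ fun _ hx => le_trans hab hx)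

/-- Iterated integrals of the tail. -/
def iter (K : Set (Fin n → ℝ)) (i : Fin n) : ℕ → ℝ → ℝ≥0∞
  | 0, r => tail K i r
  | k + 1, r => ∫⁻ s in Set.Ioi (0 : ℝ), iter K i k (r + s)

lemma iter_antitone (K : Set (Fin n → ℝ)) (i : Fin n) : ∀ k, Antitone (iter K i k)
  | 0 => tail_antitone K i
  | k + 1 => fun _ _ hab => lintegral_mono fun _ => iter_antitone K i k (by linarith)

lemma measurable_iter_shift (K : Set (Fin n → ℝ)) (i : Fin n) (k : ℕ) (r : ℝ) :
    Measurable fun s => iter K i k (r + s) :=
  Antitone.measurable fun _ _ hab => iter_antitone K i k (by linarith)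

lemma iter_nbu {K : Set (Fin n → ℝ)} (hK : IsCompact K) (hconv : Convex ℝ K) (i : Fin n) :
    ∀ k l : ℕ, ∀ a b : ℝ, 0 ≤ a → 0 ≤ b →
      iter K i (k + l) (a + b) * tail K i 0 ≤ iter K i k a * iter K i l b := by
  intro k
  induction k with
  | zero =>
    intro l
    induction l with
    | zero => exact fun a b ha hb => tail_nbu hK hconv i ha hb
    | succ l ih =>
      intro a b ha hb
      simp only [zero_add] at ih ⊢
      show (∫⁻ s in Set.Ioi (0 : ℝ), iter K i l (a + b + s)) * tail K i 0
        ≤ iter K i 0 a * ∫⁻ s in Set.Ioi (0 : ℝ), iter K i l (b + s)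
      rw [← lintegral_mul_const _ (measurable_iter_shift K i l _),
        ← lintegral_const_mul _ (measurable_iter_shift K i l b)]
      refine setLIntegral_mono' measurableSet_Ioi fun s hs => ?_
      rw [add_assoc]
      exact ih a (b + s) ha (add_nonneg hb (le_of_lt hs))
  | succ k ih =>
    intro l a b ha hb
    rw [Nat.succ_add]
    show (∫⁻ s in Set.Ioi (0 : ℝ), iter K i (k + l) (a + b + s)) * tail K i 0
      ≤ (∫⁻ s in Set.Ioi (0 : ℝ), iter K i k (a + s)) * iter K i l b
    rw [← lintegral_mul_const _ (measurable_iter_shift K i _ _),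
      ← lintegral_mul_const _ (measurable_iter_shift K i k a)]
    refine setLIntegral_mono' measurableSet_Ioi fun s hs => ?_
    rw [add_right_comm]
    exact ih l (a + s) b (add_nonneg ha (le_of_lt hs)) hb

lemma lintegral_pow_part (u : ℝ) {k : ℕ} (hk : k ≠ 0) :
    ∫⁻ s in Set.Ioi (0 : ℝ), ENNReal.ofReal (max (u - s) 0 ^ k / k.factorial)
      = ENNReal.ofReal (max u 0 ^ (k + 1) / (k + 1).factorial) := by
  set w := max u 0 with hw
  have hw0 : 0 ≤ w := le_max_right _ _
  have hsplit : ∫⁻ s in Set.Ioi (0 : ℝ), ENNReal.ofReal (max (u - s) 0 ^ k / k.factorial)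
      = ∫⁻ s in Set.Ioc (0 : ℝ) w, ENNReal.ofReal ((w - s) ^ k / k.factorial) := by
    rw [← lintegral_indicator measurableSet_Ioi, ← lintegral_indicator measurableSet_Ioc]
    refine lintegral_congr fun s => ?_
    by_cases hs : 0 < s
    · by_cases hsw : s ≤ w
      · have hu : s ≤ u := by rcases le_max_iff.1 hsw with h | h <;> linarith
        rw [indicator_of_mem (mem_Ioi.2 hs), indicator_of_mem (mem_Ioc.2 ⟨hs, hsw⟩),
          max_eq_left (by linarith), hw, max_eq_left (by linarith)]
      · rw [indicator_of_mem (mem_Ioi.2 hs), indicator_of_notMem (fun h => hsw (mem_Ioc.1 h).2),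
          max_eq_right (by linarith [le_max_left u 0, not_le.1 hsw]), zero_pow hk, zero_div,
          ENNReal.ofReal_zero]
    · rw [indicator_of_notMem (fun h => hs (mem_Ioi.1 h)),
        indicator_of_notMem (fun h => hs (mem_Ioc.1 h).1)]
  rw [hsplit, ← ofReal_integral_eq_lintegral_ofReal
    (f := fun s : ℝ => (w - s) ^ k / k.factorial)
    ((by fun_prop : Continuous fun s : ℝ => (w - s) ^ k / k.factorial).integrableOn_Ioc)
    ((ae_restrict_mem measurableSet_Ioc).mono fun s hs => by
      have : 0 ≤ w - s := sub_nonneg.2 hs.2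
      positivity),
    ← intervalIntegral.integral_of_le hw0]
  congr 1
  rw [intervalIntegral.integral_div, intervalIntegral.integral_comp_sub_left (fun s => s ^ k),
    integral_pow, Nat.factorial_succ]
  push_cast
  simp only [sub_self, sub_zero, zero_pow (Nat.succ_ne_zero k)]
  field_simp

lemma iter_eq {K : Set (Fin n → ℝ)} (i : Fin n) : ∀ k : ℕ, ∀ r : ℝ, iter K i (k + 1) r
    = ∫⁻ x in K, ENNReal.ofReal (max (x i - r) 0 ^ (k + 1) / (k + 1).factorial) := by
  intro k
  induction k with
  | zero => intro r; simpa [iter] using (pos_part_layer K i r).symm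
  | succ k ih =>
    intro r
    rw [iter, lintegral_congr fun s => ih (r + s), lintegral_lintegral_swap]
    · refine lintegral_congr fun x => ?_
      simp only [sub_add_eq_sub_sub]
      exact lintegral_pow_part (x i - r) (Nat.succ_ne_zero k)
    · exact (by fun_prop : Measurable (Function.uncurry fun (s : ℝ) (x : Fin n → ℝ) =>
        ENNReal.ofReal (max (x i - (r + s)) 0 ^ (k + 1) / (k + 1).factorial))).aemeasurable

/-- The moment comparison for a coordinate of a symmetric convex body. -/
lemma coord_fourth_moment_le {K : Set (Fin n → ℝ)} (hK : IsCompact K) (hconv : Convex ℝ K)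
    (hsym : ∀ x ∈ K, -x ∈ K) (i : Fin n) :
    (volume K).toReal * ∫ x in K, x i ^ 4 ≤ 6 * (∫ x in K, x i ^ 2) ^ 2 := by
  have hint : ∀ k : ℕ, IntegrableOn (fun x : Fin n → ℝ => max (x i) 0 ^ k) K volume := fun k =>
    ((continuous_apply i).max continuous_const |>.pow k).continuousOn.integrableOn_compact hK
  have heven : ∀ k : ℕ, Even k → k ≠ 0 →
      ∫ x in K, x i ^ k = 2 * ∫ x in K, max (x i) 0 ^ k := by
    intro k hk hk0
    have hneg : IntegrableOn (fun x : Fin n → ℝ => max (-x i) 0 ^ k) K volume :=
      ((continuous_apply i).neg.max continuous_const |>.pow k).continuousOn.integrableOn_compact hK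
    have h1 : ∫ x in K, x i ^ k
        = (∫ x in K, max (x i) 0 ^ k) + ∫ x in K, max (-x i) 0 ^ k := by
      rw [← integral_add (hint k) hneg]
      refine setIntegral_congr_fun hK.measurableSet fun x _ => ?_
      rcases le_total 0 (x i) with h | h <;> simp [h, zero_pow hk0, hk.neg_pow]
    rw [h1, show ∫ x in K, max (-x i) 0 ^ k = ∫ x in K, max (x i) 0 ^ k from
      LpSub.LowAux.setIntegral_neg_body hsym fun x => max (x i) 0 ^ k]
    ring
  have hreal : ∀ k : ℕ, iter K i (k + 1) 0 ≠ ⊤ ∧ (iter K i (k + 1) 0).toReal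
      = (∫ x in K, max (x i) 0 ^ (k + 1)) / (k + 1).factorial := by
    intro k
    have hi := (hint (k + 1)).div_const ((k + 1).factorial : ℝ)
    rw [iter_eq]
    simp only [sub_zero]
    refine ⟨hi.lintegral_lt_top.ne, ?_⟩
    rw [← integral_div, integral_eq_lintegral_of_nonneg_ae
      (Filter.Eventually.of_forall fun x => by positivity) hi.aestronglyMeasurable]
  have hhalf : (volume K).toReal ≤ 2 * (tail K i 0).toReal := by
    have hsub : K ⊆ (K ∩ {x | 0 ≤ x i}) ∪ ((fun y : Fin n → ℝ => -y) ⁻¹' (K ∩ {x | 0 ≤ x i})) := by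
      intro x hx
      rcases le_total 0 (x i) with h | h
      · exact Or.inl ⟨hx, h⟩
      · exact Or.inr ⟨hsym x hx, by simp [h]⟩
    have h := (measure_mono hsub).trans (measure_union_le (μ := volume) _ _)
    rw [(Measure.measurePreserving_neg (volume : Measure (Fin n → ℝ))).measure_preimage
      (hK.measurableSet.inter (measurableSet_halfspace i 0)).nullMeasurableSet, ← two_mul] at h
    have h' := ENNReal.toReal_mono (ENNReal.mul_ne_top (by simp)
      (ne_top_of_le_ne_top hK.measure_lt_top.ne (measure_mono inter_subset_left))) h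
    simpa [tail] using h'
  have hnbu := ENNReal.toReal_mono (ENNReal.mul_ne_top (hreal 1).1 (hreal 1).1)
    (show iter K i (3 + 1) 0 * tail K i 0 ≤ iter K i (1 + 1) 0 * iter K i (1 + 1) 0 by
      simpa using iter_nbu hK hconv i 2 2 0 0 le_rfl le_rfl)
  rw [ENNReal.toReal_mul, ENNReal.toReal_mul, (hreal 1).2, (hreal 3).2] at hnbu
  norm_num [Nat.factorial] at hnbu
  rw [heven 4 (by decide) (by norm_num), heven 2 (by decide) (by norm_num)]
  have hq0 : 0 ≤ ∫ x in K, max (x i) 0 ^ 4 := integral_nonneg fun x => by positivity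
  nlinarith [mul_le_mul_of_nonneg_right hhalf hq0, hnbu]

end FourAux

/-- The fourth moment bound of the pins. -/
theorem fourthMoment : FourthMoment := by
  intro n K w hK hconv hsym
  by_cases hw : ∀ j, w j = 0
  · simp [hw]
  push Not at hw
  obtain ⟨i, hi⟩ := hw
  obtain ⟨A, hAi, hAneg⟩ := LpSub.LowAux.exists_coord_map hi
  have h := FourAux.coord_fourth_moment_le (hK.image A.toAffineMap.continuous_of_finiteDimensional)
    (hconv.affine_image A.toAffineMap) (by
      rintro _ ⟨x, hx, rfl⟩
      exact ⟨-x, hsym x hx, hAneg x⟩) i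
  simp only [AffineEquiv.coe_toAffineMap] at h
  rw [integral_affine_image A hK.measurableSet, integral_affine_image A hK.measurableSet,
    volume_affine_image A hK.measurableSet] at h
  simp only [hAi] at h
  have hd : 0 < |LinearMap.det A.linear.toLinearMap| := abs_pos.2 (det_linear_ne_zero A)
  refine le_of_mul_le_mul_left ?_ (mul_pos hd hd)
  linear_combination h

end Vale.Agent.P254.LqQuot
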