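import Vale.Agent.P254.LqQuot.Main
import Vale.Agent.P254.LpSub.General

/-!
P254, quotients of `L_q`: passage from simple functions to all of `L_p`.
-/

noncomputable section

open MeasureTheory Set Filter Topology
open scoped ENNReal Nat Pointwise

namespace Vale.Agent.P254.LqQuot

open Vale.Agent.P254.LpSub

variable {n : ℕ}

/-- Bodies squeezed around `C` pass a bound on the isotropic constant to `C`. -/
lemma isoConst_limit {C : Set (Fin n → ℝ)} {D : ℕ → Set (Fin n → ℝ)} {d : ℕ → ℝ} {r : ℝ}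
    (hC : IsCompact C) (hconv : Convex ℝ C) (hsymC : ∀ x ∈ C, -x ∈ C)
    (hV : 0 < (volume C).toReal) (hD : ∀ m, MeasurableSet (D m))
    (hsymD : ∀ m, ∀ x ∈ D m, -x ∈ D m) (hd0 : ∀ m, 0 ≤ d m) (hd1 : ∀ m, d m ≤ 1 / 2)
    (hd : Tendsto d atTop (𝓝 0)) (hin : ∀ m, ∀ x ∈ C, (1 - d m) • x ∈ D m)
    (hout : ∀ m, ∀ x ∈ D m, (1 + d m)⁻¹ • x ∈ C) (hle : ∀ m, isoConst (D m) ≤ r) :
    isoConst C ≤ r := by
  obtain ⟨R, hR⟩ := hC.isBounded.exists_norm_le
  set box : Set (Fin n → ℝ) := Metric.closedBall 0 (2 * |R|) with hbox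
  have hbd : ∀ m, D m ⊆ box := fun m x hx => by
    have h := (hR _ (hout m x hx)).trans (le_abs_self R)
    have hpos : 0 < 1 + d m := by linarith [hd0 m]
    rw [norm_smul, Real.norm_of_nonneg (inv_nonneg.2 hpos.le), inv_mul_le_iff₀ hpos] at h
    rw [hbox, mem_closedBall_zero_iff]
    exact h.trans (mul_le_mul_of_nonneg_right (by linarith [hd1 m]) (abs_nonneg R))
  have hlim : ∀ F : (Fin n → ℝ) → ℝ, Continuous F →
      Tendsto (fun m => ∫ x in D m, F x) atTop (𝓝 (∫ x in C, F x)) := by
    intro F hF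
    simp only [← integral_indicator (hD _), ← integral_indicator hC.measurableSet]
    refine tendsto_integral_of_dominated_convergence (box.indicator fun x => ‖F x‖)
      (fun m => (hF.measurable.indicator (hD m)).aestronglyMeasurable)
      ((hF.norm.continuousOn.integrableOn_compact (isCompact_closedBall _ _)).integrable_indicator
        measurableSet_closedBall) (fun m => Eventually.of_forall fun x => ?_) ?_
    · rw [norm_indicator_eq_indicator_norm]
      exact indicator_le_indicator_of_subset (hbd m) (fun _ => norm_nonneg _) x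
    · filter_upwards [measure_eq_zero_iff_ae_notMem.1 (hconv.addHaar_frontier volume)] with x hx
      have h1 : Tendsto (fun m => (1 - d m)⁻¹ • x) atTop (𝓝 x) := by
        simpa using ((hd.const_sub 1).inv₀ (by norm_num)).smul_const x
      have h2 : Tendsto (fun m => (1 + d m)⁻¹ • x) atTop (𝓝 x) := by
        simpa using ((hd.const_add 1).inv₀ (by norm_num)).smul_const x
      refine tendsto_const_nhds.congr' ?_
      by_cases hxC : x ∈ C
      · have hxi : x ∈ interior C := by
          by_contra hc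
          exact hx ⟨subset_closure hxC, hc⟩
        filter_upwards [h1.eventually_mem (isOpen_interior.mem_nhds hxi)] with m hm
        have hxm := hin m _ (interior_subset hm)
        rw [smul_inv_smul₀ (show 1 - d m ≠ 0 by linarith [hd1 m])] at hxm
        rw [indicator_of_mem hxm, indicator_of_mem hxC]
      · filter_upwards [h2.eventually_mem (hC.isClosed.isOpen_compl.mem_nhds hxC)] with m hm
        rw [indicator_of_notMem fun hc => hm (hout m x hc), indicator_of_notMem hxC]
  have hVol : Tendsto (fun m => (volume (D m)).toReal) atTop (𝓝 (volume C).toReal) := by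
    have := hlim (fun _ => 1) continuous_const
    simpa [Measure.real] using this
  have hcov : Tendsto (fun m => (covMatrix (D m)).det) atTop (𝓝 (covMatrix C).det) := by
    refine (continuous_id.matrix_det.tendsto _).comp
      (tendsto_pi_nhds.2 fun i => tendsto_pi_nhds.2 fun k => ?_)
    have h1 := (hVol.inv₀ hV.ne').mul (hlim (fun x => x i * x k) (by fun_prop))
    simpa [covMatrix, FewSlabs.centroid_eq_zero (hsymD _), FewSlabs.centroid_eq_zero hsymC] using h1
  exact le_of_tendsto ((hcov.div (hVol.pow 2) (by positivity)).rpow_const (Or.inr (by positivity)))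
    (Eventually.of_forall hle)

/-- A bound below `√(2/15)` is below every simplex. -/
lemma lt_simplex (hn : 80 ≤ n) {L : ℝ} (hle : L ≤ Real.sqrt (2 / 15))
    (B : (Fin n → ℝ) ≃ᵃ[ℝ] (Fin n → ℝ)) : L < isoConst (B '' stdSimplexBody n) := by
  refine hle.trans_lt ?_
  have hn0 : (0 : ℝ) < n := by exact_mod_cast (show 0 < n by omega)
  have hS : IsCompact (stdSimplexBody n) := by
    rw [stdSimplexBody_eq]; exact solidSimplex_compact n 1
  have hSV : 0 < (volume (stdSimplexBody n)).toReal := by
    rw [(covMatrix_stdSimplexBody n).2]; positivity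
  have hcrit := FewSlabs.crit_of_few (x := 8 / 5 * n) (by positivity) (show 2 ≤ n by omega)
    (Or.inr (Or.inr ⟨hn, by linarith⟩))
  rw [show (8 : ℝ) / 5 * n / (12 * n) = 2 / 15 by field_simp; norm_num] at hcrit
  rw [isoConst_affine B hS hSV, isoConst, show Real.sqrt (2 / 15)
      = ((2 / 15 : ℝ) ^ n) ^ ((1 : ℝ) / (2 * n)) by
    rw [← Real.rpow_natCast, ← Real.rpow_mul (by norm_num), Real.sqrt_eq_rpow]
    congr 1; field_simp]
  refine Real.rpow_lt_rpow (by positivity) (hcrit.trans_eq ?_) (by positivity)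
  rw [simplex_base]
  simp [mul_pow]
  field_simp
  ring

open Vale.Agent.P254.LpSub.GeneralAux in
/-- The theorem for the polars of all subspaces of `L_p`. -/
theorem main_general (hL : P248.LpMahler.Lewis) (hM : MomentLow) (hF : FourthMoment)
    (hPV : PolarVolume) (hN : QuotNumeric) (hn : 200 ≤ n) {Ω : Type} [MeasurableSpace Ω]
    (μ : Measure Ω) (f : Fin n → Ω → ℝ) {p : ℝ} (hp : 6 / 5 ≤ p) (hp' : p ≤ 4)
    (hf : ∀ j, MemLp (f j) (ENNReal.ofReal p) μ)
    (hb : Bornology.IsBounded {x : Fin n → ℝ | ∫ ω, |∑ j, x j * f j ω| ^ p ∂μ ≤ 1}) :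
    isoConst (P248.polarBody {x : Fin n → ℝ | ∫ ω, |∑ j, x j * f j ω| ^ p ∂μ ≤ 1})
        ≤ Real.sqrt (2 / 15) ∧
      ∀ B : (Fin n → ℝ) ≃ᵃ[ℝ] (Fin n → ℝ),
        isoConst (P248.polarBody {x : Fin n → ℝ | ∫ ω, |∑ j, x j * f j ω| ^ p ∂μ ≤ 1})
          < isoConst (B '' stdSimplexBody n) := by
  have hp0 : 0 < p := by linarith
  have hp1 : 1 ≤ p := by linarith
  have hn0 : (0 : ℝ) < n := by exact_mod_cast (show 0 < n by omega)
  set q := ENNReal.ofReal p with hq
  have hq1 : 1 ≤ q := by rw [hq]; exact ENNReal.one_le_ofReal.2 hp1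
  set P := nrm μ f q with hPdef
  have hP0 : ∀ x, 0 ≤ P x := fun x => ENNReal.toReal_nonneg
  set K := {x : Fin n → ℝ | ∫ ω, |∑ j, x j * f j ω| ^ p ∂μ ≤ 1} with hK
  have hKP : K = {x | P x ≤ 1} := by
    ext x
    show _ ≤ (1 : ℝ) ↔ _
    rw [← nrm_rpow hp1 hf x]
    exact ⟨fun h => by
      by_contra hc
      exact absurd h (not_le.2 (Real.one_lt_rpow (not_le.1 hc) hp0)),
      fun h => Real.rpow_le_one (hP0 x) h hp0.le⟩
  obtain ⟨R, hR'⟩ := hb.exists_norm_le
  set R' := |R| + 1
  have hlow : ∀ x, ‖x‖ ≤ R' * P x := fun x => by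
    by_contra hc
    push Not at hc
    have hx : 0 < ‖x‖ := lt_of_le_of_lt (mul_nonneg (by positivity) (hP0 x)) hc
    have hmem : (R' / ‖x‖) • x ∈ K := by
      rw [hKP]
      show P _ ≤ 1
      rw [hPdef, nrm_smul, abs_of_pos (div_pos (by positivity) hx), ← hPdef, div_mul_eq_mul_div,
        div_le_one hx]
      exact hc.le
    have := hR' _ hmem
    rw [norm_smul, Real.norm_of_nonneg (by positivity), div_mul_cancel₀ _ hx.ne'] at this
    linarith [le_abs_self R]
  set C := ∑ j, (eLpNorm (f j) q μ).toReal with hC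
  have hC0 : 0 ≤ C := Finset.sum_nonneg fun j _ => ENNReal.toReal_nonneg
  have hup : ∀ y, P y ≤ C * ‖y‖ := fun y => by
    have h1 : eLpNorm (fun ω => ∑ j, y j * f j ω) q μ ≤ ∑ j, eLpNorm (y j • f j) q μ := by
      rw [show (fun ω => ∑ j, y j * f j ω) = ∑ j, y j • f j by funext ω; simp [Finset.sum_apply]]
      exact eLpNorm_sum_le (fun j _ => (hf j).aestronglyMeasurable.const_smul _) hq1
    have h2 := ENNReal.toReal_mono (ENNReal.sum_ne_top.2 fun j _ =>
      ((hf j).const_smul (y j)).eLpNorm_ne_top) h1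
    rw [ENNReal.toReal_sum fun j _ => ((hf j).const_smul (y j)).eLpNorm_ne_top] at h2
    refine h2.trans ?_
    rw [hC, Finset.sum_mul]
    refine Finset.sum_le_sum fun j _ => ?_
    rw [eLpNorm_const_smul, ENNReal.toReal_mul, Real.enorm_eq_ofReal_abs,
      ENNReal.toReal_ofReal (abs_nonneg _), mul_comm]
    exact mul_le_mul_of_nonneg_left
      ((Real.norm_eq_abs (y j)).symm.le.trans (norm_le_pi_norm y j)) ENNReal.toReal_nonneg
  have hpolb : Bornology.IsBounded (P248.polarBody K) :=
    P248.LpMahler.polar_isBounded (r := 1 / (C + 1)) (by positivity) fun x hx => by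
      rw [hKP]
      refine (hup x).trans ((mul_le_mul_of_nonneg_left hx hC0).trans ?_)
      rw [mul_one_div, div_le_one (by positivity)]
      linarith
  have hneg : ∀ x ∈ K, -x ∈ K := fun x hx => by
    rw [hKP] at hx ⊢
    show P (-x) ≤ 1
    rw [hPdef, ← neg_one_smul ℝ x, nrm_smul]
    simpa using hx
  -- approximation by finitely many functionals
  have happ : ∀ m : ℕ, ∃ (N : ℕ) (a : Fin N → Fin n → ℝ), Bornology.IsBounded (lpBody a p) ∧
      (∀ x ∈ K, (1 + 1 / ((m : ℝ) + 2))⁻¹ • x ∈ lpBody a p) ∧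
      (∀ x ∈ lpBody a p, (1 - 1 / ((m : ℝ) + 2)) • x ∈ K) := by
    intro m
    set d : ℝ := 1 / ((m : ℝ) + 2) with hd
    have hd0 : 0 < d := by positivity
    have hd1 : d ≤ 1 / 2 := by rw [hd]; gcongr; simp
    set ε : ℝ := d / (n * R') with hε
    have hε0 : 0 < ε := by positivity
    choose g hg hgm using fun j => (hf j).exists_simpleFunc_eLpNorm_sub_lt ENNReal.ofReal_ne_top
      (ε := ENNReal.ofReal ε) (ENNReal.ofReal_pos.2 hε0).ne'
    obtain ⟨N, a, ha⟩ := simple_body hp1 hgm
    set Q := nrm μ (fun j => ⇑(g j)) q with hQ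
    have hs : ∀ x, (∑ j, |x j|) * ε ≤ d * P x := fun x => by
      have h1 : ∑ j, |x j| ≤ n * (R' * P x) := by
        refine (Finset.sum_le_sum (g := fun _ => R' * P x) fun j _ => ?_).trans (by simp)
        exact ((Real.norm_eq_abs (x j)).symm.le.trans (norm_le_pi_norm x j)).trans (hlow x)
      calc (∑ j, |x j|) * ε ≤ n * (R' * P x) * ε := mul_le_mul_of_nonneg_right h1 hε0.le
        _ = d * P x := by
          rw [hε]
          have : R' ≠ 0 := by positivity
          field_simp
    have hout : ∀ x ∈ lpBody a p, (1 - d) • x ∈ K := fun x hx => by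
      have := nrm_sub_le hq1 hf hgm hε0.le (fun j => (hg j).le) x
      rw [← hPdef, ← hQ] at this
      rw [hKP]
      show P _ ≤ 1
      rw [hPdef, nrm_smul, abs_of_pos (by linarith), ← hPdef]
      rw [ha] at hx
      have hx' : Q x ≤ 1 := hx
      linarith [hs x]
    refine ⟨N, a, ?_, ?_, hout⟩
    · refine (hb.smul₀ (1 - d)⁻¹).subset fun x hx => ?_
      rw [Set.mem_smul_set_iff_inv_smul_mem₀ (inv_ne_zero (by linarith)), inv_inv]
      exact hout x hx
    · intro x hx
      have := nrm_sub_le hq1 hgm hf hε0.le (fun j => by rw [eLpNorm_sub_comm]; exact (hg j).le) x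
      rw [← hPdef, ← hQ] at this
      rw [ha]
      show Q _ ≤ 1
      rw [hKP] at hx
      have hx' : P x ≤ 1 := hx
      rw [hQ, nrm_smul, abs_of_pos (by positivity), ← hQ, inv_mul_le_iff₀ (by linarith), mul_one]
      calc Q x ≤ P x + (∑ j, |x j|) * ε := this
        _ ≤ (1 + d) * P x := by linarith [hs x]
        _ ≤ 1 + d := mul_le_of_le_one_right (by linarith) hx'
  choose N a hbm hin hout using happ
  have ht : Tendsto (fun m : ℕ => (1 : ℝ) / ((m : ℝ) + 2)) atTop (𝓝 0) := by
    simp only [one_div]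
    exact tendsto_inv_atTop_zero.comp
      (tendsto_atTop_add_const_right _ _ tendsto_natCast_atTop_atTop)
  have hsc : ∀ (c : ℝ) (y x : Fin n → ℝ), ∑ j, (c • y) j * x j = ∑ j, y j * (c • x) j :=
    fun c y x => Finset.sum_congr rfl fun j _ => by simp; ring
  have hle : isoConst (P248.polarBody K) ≤ Real.sqrt (2 / 15) := by
    refine isoConst_limit (D := fun m => P248.polarBody (lpBody (a m) p))
      (d := fun m => (1 : ℝ) / ((m : ℝ) + 2))
      (Metric.isCompact_of_isClosed_isBounded (polar_closed K) hpolb) (polar_convex K)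
      (polar_symm hneg) (polar_volume_pos hb hpolb) (fun m => (polar_closed _).measurableSet)
      (fun m => polar_symm (lpBody_symm _ p)) (fun m => by positivity)
      (fun m => by gcongr; simp) ht (fun m y hy x hx => ?_) (fun m y hy x hx => ?_)
      (fun m => finite_case hL hM hF hPV hN hn (a m) hp hp' (hbm m))
    · rw [hsc]; exact hy _ (hout m x hx)
    · rw [hsc]; exact hy _ (hin m x hx)
  exact ⟨hle, fun B => lt_simplex (by omega) hle B⟩

end Vale.Agent.P254.LqQuot
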