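import Vale.Agent.P254.LqQuot.Pins
import Vale.Agent.P254.LpSub.Main
import Vale.Agent.P254.LpSub.Numeric
import Vale.Agent.P248.LpMahler.Main

/-!
P254, quotients of `L_q`: assembly for finitely many functionals.
-/

noncomputable section

open MeasureTheory Set Matrix
open scoped Nat

namespace Vale.Agent.P254.LqQuot

open Vale.Agent.P254.LpSub

variable {n N : ℕ}

lemma polar_closed (K : Set (Fin n → ℝ)) : IsClosed (P248.polarBody K) := by
  simp only [P248.polarBody, Set.ofPred_forall]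
  exact isClosed_iInter fun x => isClosed_iInter fun _ =>
    isClosed_le (by fun_prop) continuous_const

lemma polar_convex (K : Set (Fin n → ℝ)) : Convex ℝ (P248.polarBody K) := by
  intro y hy z hz s t hs ht hst x hx
  have e : ∑ j, (s • y + t • z) j * x j = s * ∑ j, y j * x j + t * ∑ j, z j * x j := by
    rw [Finset.mul_sum, Finset.mul_sum, ← Finset.sum_add_distrib]
    exact Finset.sum_congr rfl fun j _ => by simp; ring
  rw [e]
  calc s * ∑ j, y j * x j + t * ∑ j, z j * x j ≤ s * 1 + t * 1 :=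
        add_le_add (mul_le_mul_of_nonneg_left (hy x hx) hs) (mul_le_mul_of_nonneg_left (hz x hx) ht)
    _ = 1 := by linarith

lemma polar_symm {K : Set (Fin n → ℝ)} (hsym : ∀ x ∈ K, -x ∈ K) :
    ∀ y ∈ P248.polarBody K, -y ∈ P248.polarBody K := fun y hy x hx => by
  simpa using hy (-x) (hsym x hx)

/-- A bounded body gives a polar of positive volume. -/
lemma polar_volume_pos {K : Set (Fin n → ℝ)} (hb : Bornology.IsBounded K)
    (hp : Bornology.IsBounded (P248.polarBody K)) :
    0 < (volume (P248.polarBody K)).toReal := by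
  refine ENNReal.toReal_pos (ne_of_gt ?_) hp.measure_lt_top.ne
  obtain ⟨R, hR⟩ := hb.exists_norm_le
  refine (Metric.measure_ball_pos volume (0 : Fin n → ℝ)
    (show (0 : ℝ) < 1 / ((n : ℝ) * |R| + 1) by positivity)).trans_le (measure_mono fun y hy x hx => ?_)
  rw [mem_ball_zero_iff] at hy
  refine (le_abs_self _).trans ((Finset.abs_sum_le_sum_abs _ _).trans ?_)
  refine (Finset.sum_le_sum (g := fun _ => 1 / ((n : ℝ) * |R| + 1) * |R|) fun j _ => ?_).trans ?_
  · rw [abs_mul]
    exact mul_le_mul ((norm_le_pi_norm y j).trans hy.le)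
      (((norm_le_pi_norm x j).trans (hR x hx)).trans (le_abs_self R)) (abs_nonneg _) (by positivity)
  · rw [Finset.sum_const, Finset.card_univ, Fintype.card_fin, nsmul_eq_mul]
    rw [div_mul_eq_mul_div, ← mul_div_assoc, one_mul, div_le_one (by positivity)]
    linarith

lemma lpBody_polar_bounded (a : Fin N → Fin n → ℝ) {p : ℝ} (hp : 0 < p) :
    Bornology.IsBounded (P248.polarBody (lpBody a p)) := by
  have h0 : lpBody a p ∈ nhds (0 : Fin n → ℝ) := by
    refine Filter.mem_of_superset ((isOpen_lt (continuous_finsetSum _ fun i _ =>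
      (by fun_prop : Continuous fun x : Fin n → ℝ => |∑ j, a i j * x j|).rpow_const
        fun _ => Or.inr hp.le) continuous_const).mem_nhds
      (show (0 : Fin n → ℝ) ∈ {x : Fin n → ℝ | ∑ i, |∑ j, a i j * x j| ^ p < 1} by
        simp [Real.zero_rpow hp.ne'])) fun x hx => le_of_lt (show _ < (1 : ℝ) from hx)
  obtain ⟨r, hr, hball⟩ := Metric.mem_nhds_iff.1 h0
  exact P248.LpMahler.polar_isBounded (r := r / 2) (by positivity) fun x hx =>
    hball (mem_ball_zero_iff.2 (by linarith))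

/-- Moments of order between 2 and 4 from the second and the fourth. -/
lemma rpow_le_moments {p σ t : ℝ} (hp : 2 ≤ p) (hp' : p ≤ 4) (hσ : 0 < σ) :
    |t| ^ p ≤ (6 : ℝ) ^ ((p - 2) / 2) * σ ^ (p / 2) *
      ((4 - p) / 2 * (t ^ 2 / σ) + (p - 2) / 2 * (t ^ 4 / (6 * σ ^ 2))) := by
  have hg := Real.geom_mean_le_arith_mean2_weighted (show 0 ≤ (4 - p) / 2 by linarith)
    (show 0 ≤ (p - 2) / 2 by linarith) (show 0 ≤ t ^ 2 / σ by positivity)
    (show 0 ≤ t ^ 4 / (6 * σ ^ 2) by positivity) (by ring)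
  refine le_trans (le_of_eq ?_) (mul_le_mul_of_nonneg_left hg (by positivity))
  rcases eq_or_ne t 0 with rfl | ht
  · rw [abs_zero, Real.zero_rpow (by linarith)]
    rcases hp.eq_or_lt with rfl | h
    · norm_num
    · simp [Real.zero_rpow (show (p - 2) / 2 ≠ 0 by linarith)]
  have ht0 : 0 < |t| := abs_pos.2 ht
  rw [← sq_abs t, show t ^ 4 = |t| ^ 4 by rw [pow_abs, abs_of_nonneg (by positivity)]]
  set u := |t| with hu
  rw [Real.div_rpow (by positivity) hσ.le, Real.div_rpow (by positivity) (by positivity),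
    Real.mul_rpow (show (0 : ℝ) ≤ 6 by norm_num) (sq_nonneg σ), ← Real.rpow_natCast u 2,
    ← Real.rpow_natCast u 4, ← Real.rpow_natCast σ 2, ← Real.rpow_mul ht0.le,
    ← Real.rpow_mul ht0.le, ← Real.rpow_mul hσ.le]
  have h6 : (0 : ℝ) < 6 ^ ((p - 2) / 2) := by positivity
  have e1 : σ ^ ((4 - p) / 2) * σ ^ (((2 : ℕ) : ℝ) * ((p - 2) / 2)) = σ ^ (p / 2) := by
    rw [← Real.rpow_add hσ]; push_cast; ring_nf
  have e2 : u ^ (((2 : ℕ) : ℝ) * ((4 - p) / 2)) * u ^ (((4 : ℕ) : ℝ) * ((p - 2) / 2)) = u ^ p := by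
    rw [← Real.rpow_add ht0]; push_cast; ring_nf
  have h1 : 0 < σ ^ ((4 - p) / 2) := Real.rpow_pos_of_pos hσ _
  have h2 : 0 < σ ^ (((2 : ℕ) : ℝ) * ((p - 2) / 2)) := Real.rpow_pos_of_pos hσ _
  rw [div_mul_div_comm, e2, ← e1]
  field_simp

/-- The bound in Lewis position. -/
lemma core (hM : MomentLow) (hF : FourthMoment) (hP : PolarVolume) (hN : QuotNumeric) (hn : 200 ≤ n)
    (b : Fin N → Fin n → ℝ) {p : ℝ} (hp : 6 / 5 ≤ p) (hp' : p ≤ 4)
    (hb : Bornology.IsBounded (lpBody b p))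
    (hframe : ∀ j k, ∑ i, √(∑ l, b i l ^ 2) ^ (p - 2) * (b i j * b i k) = if j = k then 1 else 0) :
    0 ≤ (covMatrix (P248.polarBody (lpBody b p))).det /
      (volume (P248.polarBody (lpBody b p))).toReal ^ 2 ∧
    (covMatrix (P248.polarBody (lpBody b p))).det /
      (volume (P248.polarBody (lpBody b p))).toReal ^ 2 < (2 / 15 : ℝ) ^ n := by
  classical
  have hp0 : 0 < p := by linarith
  have hn0 : (0 : ℝ) < n := by exact_mod_cast (show 0 < n by omega)
  set K := P248.polarBody (lpBody b p) with hK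
  have hbd := lpBody_polar_bounded b hp0
  have hKc : IsCompact K := Metric.isCompact_of_isClosed_isBounded (polar_closed _) hbd
  have hconv : Convex ℝ K := polar_convex _
  have hsym : ∀ y ∈ K, -y ∈ K := polar_symm (lpBody_symm b p)
  set V := (volume K).toReal with hVdef
  have hV : 0 < V := polar_volume_pos hb hbd
  have hint : ∀ f : (Fin n → ℝ) → ℝ, Continuous f → IntegrableOn f K volume := fun f hf =>
    hf.continuousOn.integrableOn_compact hKc
  set S : Matrix (Fin n) (Fin n) ℝ := covMatrix K with hS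
  have hSapp : ∀ j k, S j k = V⁻¹ * ∫ x in K, x j * x k := fun j k => by
    simp [hS, covMatrix, FewSlabs.centroid_eq_zero hsym, hVdef]
  have hbil : ∀ v w : Fin n → ℝ,
      V⁻¹ * ∫ x in K, (∑ j, v j * x j) * (∑ k, w k * x k) = v ⬝ᵥ (S *ᵥ w) := by
    intro v w
    have e2 : ∀ x : Fin n → ℝ, (∑ j, v j * x j) * (∑ k, w k * x k)
        = ∑ j, ∑ k, v j * w k * (x j * x k) := fun x => by
      rw [Finset.sum_mul_sum]
      exact Finset.sum_congr rfl fun j _ => Finset.sum_congr rfl fun k _ => by ring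
    simp only [e2]
    rw [integral_finsetSum _ fun j _ => integrable_finsetSum _ fun k _ => hint _ (by fun_prop)]
    simp only [dotProduct, Matrix.mulVec, hSapp, Finset.mul_sum]
    refine Finset.sum_congr rfl fun j _ => ?_
    rw [integral_finsetSum _ fun k _ => hint _ (by fun_prop), Finset.mul_sum]
    exact Finset.sum_congr rfl fun k _ => by rw [integral_const_mul]; ring
  have hquad : ∀ v : Fin n → ℝ, V⁻¹ * ∫ x in K, (∑ j, v j * x j) ^ 2 = v ⬝ᵥ (S *ᵥ v) := fun v => by
    rw [← hbil]; simp only [sq]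
  have hSp : S.PosDef := by
    refine Matrix.PosDef.of_dotProduct_mulVec_pos (by
      ext j k; simp [hSapp, Matrix.conjTranspose_apply, mul_comm]) fun v hv => ?_
    rw [star_trivial, ← hquad]
    refine mul_pos (inv_pos.2 hV) ((setIntegral_pos_iff_support_of_nonneg_ae
      (Filter.Eventually.of_forall fun x => sq_nonneg _) (hint _ (by fun_prop))).2 ?_)
    have hnull : volume {x : Fin n → ℝ | ∑ j, v j * x j = 0} = 0 := by
      let l : (Fin n → ℝ) →ₗ[ℝ] ℝ := ∑ i, v i • LinearMap.proj i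
      have hl : ∀ x, l x = ∑ j, v j * x j := fun x => by simp [l]
      have hne : LinearMap.ker l ≠ ⊤ := fun h => hv (funext fun i => by
        have h0 : ∑ j, v j * v j = 0 := by rw [← hl, LinearMap.ker_eq_top.1 h]; rfl
        simpa using (Finset.sum_eq_zero_iff_of_nonneg fun j _ => mul_self_nonneg (v j)).1 h0 i
          (Finset.mem_univ i))
      have := Measure.addHaar_submodule (volume : Measure (Fin n → ℝ)) _ hne
      rwa [show ((LinearMap.ker l : Submodule ℝ (Fin n → ℝ)) : Set (Fin n → ℝ))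
        = {x | ∑ j, v j * x j = 0} by ext; simp [hl]] at this
    have hKpos : 0 < volume K := (ENNReal.toReal_pos_iff.1 hV).1
    refine lt_of_lt_of_le ?_ (measure_mono (s := K \ {x : Fin n → ℝ | ∑ j, v j * x j = 0})
      fun x hx => ⟨by simpa [Function.mem_support] using hx.2, hx.1⟩)
    rwa [measure_sdiff_null hnull]
  set O : Matrix (Fin n) (Fin n) ℝ := (hSp.1.eigenvectorUnitary : Matrix (Fin n) (Fin n) ℝ) with hO
  set l := hSp.1.eigenvalues with hl
  have hlpos : ∀ k, 0 < l k := hSp.eigenvalues_pos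
  have hdiag : Oᵀ * S * O = diagonal l := by
    have h1 := hSp.1.conjStarAlgAut_star_eigenvectorUnitary
    rw [Unitary.conjStarAlgAut_star_apply] at h1
    simpa [hO, hl, star_eq_conjTranspose] using h1
  have hOO : O * Oᵀ = 1 := by
    have h1 := Unitary.coe_mul_star_self hSp.1.eigenvectorUnitary
    simpa [hO, star_eq_conjTranspose] using h1
  have hOO' : Oᵀ * O = 1 := mul_eq_one_comm.1 hOO
  set d : Fin n → ℝ := fun k => 1 / √(l k) with hd
  set P : Matrix (Fin n) (Fin n) ℝ := O * diagonal d * Oᵀ with hPdef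
  have hPT : Pᵀ = P := by
    rw [hPdef, Matrix.transpose_mul, Matrix.transpose_mul, Matrix.transpose_transpose,
      Matrix.diagonal_transpose, Matrix.mul_assoc]
  have hPSP : P * S * P = 1 := by
    calc P * S * P = O * (diagonal d * (Oᵀ * S * O) * diagonal d) * Oᵀ := by
          simp only [hPdef, Matrix.mul_assoc]
      _ = 1 := by
          rw [hdiag, Matrix.diagonal_mul_diagonal, Matrix.diagonal_mul_diagonal,
            show (fun i => d i * l i * d i) = fun _ => (1 : ℝ) from funext fun k => by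
              simp only [hd]
              rw [show ∀ c e : ℝ, 1 / c * e * (1 / c) = e / (c * c) from fun c e => by ring,
                Real.mul_self_sqrt (hlpos k).le, div_self (hlpos k).ne'],
            Matrix.diagonal_one, Matrix.mul_one, hOO]
  have htr : (P * S).trace = ∑ k, √(l k) := by
    rw [hPdef, show O * diagonal d * Oᵀ * S = O * (diagonal d * (Oᵀ * S)) by
        simp only [Matrix.mul_assoc], Matrix.trace_mul_comm,
      Matrix.mul_assoc (diagonal d), hdiag, Matrix.diagonal_mul_diagonal, Matrix.trace_diagonal]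
    exact Finset.sum_congr rfl fun k _ => by
      rw [hd]
      simp only
      rw [one_div_mul_eq_div, Real.div_sqrt]
  clear_value P
  set q := p / (p - 1) with hqdef
  have hpq : p.HolderConjugate q := Real.holderConjugate_iff.2 ⟨by linarith, by
    rw [hqdef, inv_div]; field_simp; ring⟩
  have hgq : 0 < gm q := gm_pos hpq.symm.nonneg
  -- the moments
  obtain ⟨c, hc, hcnum, hmom⟩ : ∃ c : ℝ, 0 < c ∧ c ^ (1 / p) * gm q ^ (1 / q) ≤ 145 / 100 ∧
      ∀ w : Fin n → ℝ, V⁻¹ * ∫ x in K, |∑ j, w j * x j| ^ p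
        ≤ c * (V⁻¹ * ∫ x in K, (∑ j, w j * x j) ^ 2) ^ (p / 2) := by
    rcases le_total p 2 with h2 | h2
    · refine ⟨(3 : ℝ) ^ (p / 2) / (p + 1), by positivity, (hN p q hpq).1 hp h2, fun w => ?_⟩
      have h := hM n K w p hKc hconv hsym hV (by linarith) h2
      rw [Real.mul_rpow (by norm_num) (mul_nonneg (inv_nonneg.2 hV.le)
        (integral_nonneg fun x => sq_nonneg _))] at h
      rw [div_mul_eq_mul_div, le_div_iff₀ (by linarith), mul_comm]
      exact h
    · refine ⟨(6 : ℝ) ^ ((p - 2) / 2), by positivity, (hN p q hpq).2 h2 hp', fun w => ?_⟩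
      rcases eq_or_ne w 0 with rfl | hw
      · simp [Real.zero_rpow (show p ≠ 0 by linarith), Real.zero_rpow (show p / 2 ≠ 0 by linarith)]
      set σ := V⁻¹ * ∫ x in K, (∑ j, w j * x j) ^ 2 with hσ
      have hσ0 : 0 < σ := by
        rw [hσ, hquad]
        simpa using hSp.dotProduct_mulVec_pos hw
      have h4 := hF n K w hKc hconv hsym
      have h4' : V⁻¹ * ∫ x in K, (∑ j, w j * x j) ^ 4 ≤ 6 * σ ^ 2 := by
        rw [hσ, mul_pow, inv_mul_le_iff₀ hV]
        refine le_of_mul_le_mul_left ?_ hV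
        calc V * ∫ x in K, (∑ j, w j * x j) ^ 4 ≤ _ := h4
          _ = _ := by field_simp
      set c6 := (6 : ℝ) ^ ((p - 2) / 2) * σ ^ (p / 2) with hc6
      have hb2 : IntegrableOn (fun x : Fin n → ℝ =>
          c6 * ((4 - p) / 2 / σ) * (∑ j, w j * x j) ^ 2) K volume := hint _ (by fun_prop)
      have hb4 : IntegrableOn (fun x : Fin n → ℝ =>
          c6 * ((p - 2) / 2 / (6 * σ ^ 2)) * (∑ j, w j * x j) ^ 4) K volume := hint _ (by fun_prop)
      have h1 := setIntegral_mono_on
        (hint (fun x => |∑ j, w j * x j| ^ p)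
          ((by fun_prop : Continuous fun x : Fin n → ℝ => |∑ j, w j * x j|).rpow_const
            fun _ => Or.inr hp0.le)) (hb2.add hb4) hKc.measurableSet fun x _ => by
          refine (rpow_le_moments (t := ∑ j, w j * x j) h2 hp' hσ0).trans (le_of_eq ?_)
          simp only [Pi.add_apply, hc6]
          ring
      rw [integral_add' hb2 hb4, integral_const_mul, integral_const_mul] at h1
      refine (mul_le_mul_of_nonneg_left h1 (inv_nonneg.2 hV.le)).trans ?_
      have h6 : 0 ≤ (p - 2) / 2 / (6 * σ ^ 2) := div_nonneg (by linarith) (by positivity)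
      calc V⁻¹ * (c6 * ((4 - p) / 2 / σ) * (∫ x in K, (∑ j, w j * x j) ^ 2)
            + c6 * ((p - 2) / 2 / (6 * σ ^ 2)) * ∫ x in K, (∑ j, w j * x j) ^ 4)
          = c6 * ((4 - p) / 2 / σ * σ + (p - 2) / 2 / (6 * σ ^ 2) *
              (V⁻¹ * ∫ x in K, (∑ j, w j * x j) ^ 4)) := by rw [hσ]; ring
        _ ≤ c6 * ((4 - p) / 2 / σ * σ + (p - 2) / 2 / (6 * σ ^ 2) * (6 * σ ^ 2)) := by
            gcongr
        _ = c6 := by field_simp; ring
        _ = _ := hc6
  -- the trace bound
  set G : (Fin n → ℝ) → ℝ := fun y => ∑ i, |∑ j, b i j * (P *ᵥ y) j| ^ p with hG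
  have hGc : Continuous G := continuous_finsetSum _ fun i _ =>
    (by simp only [Matrix.mulVec, dotProduct]; fun_prop :
      Continuous fun y : Fin n → ℝ => |∑ j, b i j * (P *ᵥ y) j|).rpow_const fun _ => Or.inr hp0.le
  set s := (c * n) ^ (1 / p) with hs
  have hs0 : 0 < s := Real.rpow_pos_of_pos (by positivity) _
  have hpt : ∀ y ∈ K, ∑ j, y j * (P *ᵥ y) j ≤ G y / (p * s ^ (p - 1)) + (1 - 1 / p) * s := by
    intro y hy
    set x := P *ᵥ y
    have hG0 : 0 ≤ G y := Finset.sum_nonneg fun i _ => Real.rpow_nonneg (abs_nonneg _) _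
    have key : ∀ r : ℝ, 0 < r → G y ≤ r ^ p → ∑ j, y j * x j ≤ r := fun r hr hGr => by
      have hmem : r⁻¹ • x ∈ lpBody b p := by
        show ∑ i, |∑ j, b i j * (r⁻¹ • x) j| ^ p ≤ 1
        have e : ∀ i, |∑ j, b i j * (r⁻¹ • x) j| ^ p = r⁻¹ ^ p * |∑ j, b i j * x j| ^ p :=
          fun i => by
            rw [← Real.mul_rpow (inv_nonneg.2 hr.le) (abs_nonneg _)]
            congr 1
            rw [← abs_of_pos (inv_pos.2 hr), ← abs_mul, Finset.mul_sum]
            congr 1
            exact Finset.sum_congr rfl fun j _ => by simp [abs_of_pos hr]; ring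
        simp only [e, ← Finset.mul_sum, Real.inv_rpow hr.le]
        rw [inv_mul_le_iff₀ (Real.rpow_pos_of_pos hr p), mul_one]
        exact hGr
      have h := hy _ hmem
      rw [show ∑ j, y j * (r⁻¹ • x) j = r⁻¹ * ∑ j, y j * x j by
        rw [Finset.mul_sum]; exact Finset.sum_congr rfl fun j _ => by simp; ring,
        inv_mul_le_iff₀ hr, mul_one] at h
      exact h
    have hroot : ∀ g, 0 ≤ g → g ^ (1 / p) ≤ g / (p * s ^ (p - 1)) + (1 - 1 / p) * s := fun g hg => by
      have hsp : 0 < s ^ p := Real.rpow_pos_of_pos hs0 p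
      have h := Real.geom_mean_le_arith_mean2_weighted (show 0 ≤ 1 / p by positivity)
        (show 0 ≤ 1 - 1 / p by rw [sub_nonneg, div_le_one hp0]; linarith) hg hsp.le (by ring)
      rw [← Real.rpow_mul hs0.le, show p * (1 - 1 / p) = p - 1 by field_simp] at h
      have hs1 : 0 < s ^ (p - 1) := Real.rpow_pos_of_pos hs0 _
      calc g ^ (1 / p) ≤ (1 / p * g + (1 - 1 / p) * s ^ p) / s ^ (p - 1) := by
            rw [le_div_iff₀ hs1]; exact h
        _ = _ := by
            rw [show s ^ p = s ^ (p - 1) * s by rw [← Real.rpow_add_one hs0.ne', sub_add_cancel]]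
            field_simp
    rcases hG0.eq_or_lt with h0 | h0
    · refine le_trans ?_ ((le_of_eq (Real.zero_rpow (show (1 : ℝ) / p ≠ 0 by positivity)).symm).trans
        ((hroot 0 le_rfl).trans (by rw [← h0])))
      refine le_of_forall_pos_le_add fun r hr => ?_
      rw [zero_add]
      exact key r hr (h0 ▸ Real.rpow_nonneg hr.le _)
    · exact (key _ (Real.rpow_pos_of_pos h0 _) (by
        rw [one_div, Real.rpow_inv_rpow hG0 hp0.ne'])).trans (hroot _ hG0)
  have hsum : ∑ i, √(∑ l, b i l ^ 2) ^ p = (n : ℝ) := by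
    have hterm : ∀ i, √(∑ l, b i l ^ 2) ^ p
        = ∑ j, √(∑ l, b i l ^ 2) ^ (p - 2) * (b i j * b i j) := by
      intro i
      have hnn : 0 ≤ ∑ j, b i j ^ 2 := Finset.sum_nonneg fun j _ => sq_nonneg _
      rw [← Finset.mul_sum]
      simp only [← sq]
      conv_rhs => arg 2; rw [← Real.sq_sqrt hnn]
      rcases (Real.sqrt_nonneg (∑ j, b i j ^ 2)).eq_or_lt with h0 | h0
      · rw [← h0, Real.zero_rpow hp0.ne']; simp
      · rw [← Real.rpow_natCast _ 2, ← Real.rpow_add h0]
        congr 1; push_cast; ring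
    simp only [hterm]
    rw [Finset.sum_comm]
    simp [hframe]
  have hGmean : V⁻¹ * ∫ y in K, G y ≤ c * n := by
    simp only [hG]
    rw [integral_finsetSum _ fun i _ => hint _ ((by simp only [Matrix.mulVec, dotProduct]; fun_prop :
      Continuous fun y : Fin n → ℝ => |∑ j, b i j * (P *ᵥ y) j|).rpow_const fun _ => Or.inr hp0.le),
      Finset.mul_sum, ← hsum, Finset.mul_sum]
    refine Finset.sum_le_sum fun i _ => ?_
    set w := P *ᵥ b i with hw
    have e : ∀ y : Fin n → ℝ, ∑ j, b i j * (P *ᵥ y) j = ∑ j, w j * y j := fun y => by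
      have h1 := Matrix.dotProduct_mulVec (b i) P y
      rw [← Matrix.mulVec_transpose, hPT] at h1
      exact h1
    simp only [e]
    refine (hmom w).trans (mul_le_mul_of_nonneg_left (le_of_eq ?_) hc.le)
    have e2 : w ⬝ᵥ (S *ᵥ w) = ∑ l, b i l ^ 2 := by
      calc w ⬝ᵥ (S *ᵥ w) = b i ⬝ᵥ ((P * S * P) *ᵥ b i) := by
            rw [hw, ← Matrix.mulVec_mulVec, ← Matrix.mulVec_mulVec,
              Matrix.dotProduct_mulVec (b i) P, ← Matrix.mulVec_transpose, hPT]
        _ = _ := by rw [hPSP, Matrix.one_mulVec]; simp [dotProduct, sq]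
    rw [hquad, e2, Real.sqrt_eq_rpow, ← Real.rpow_mul (Finset.sum_nonneg fun j _ => sq_nonneg _)]
    ring_nf
  have htrace : ∑ k, √(l k) ≤ s := by
    have hxPx : V⁻¹ * ∫ y in K, ∑ j, y j * (P *ᵥ y) j = (P * S).trace := by
      have e : ∀ y : Fin n → ℝ, ∑ j, y j * (P *ᵥ y) j = ∑ j, ∑ k, P j k * (y k * y j) := fun y => by
        simp only [Matrix.mulVec, dotProduct, Finset.mul_sum]
        exact Finset.sum_congr rfl fun j _ => Finset.sum_congr rfl fun k _ => by ring
      simp only [e]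
      rw [integral_finsetSum _ fun j _ => integrable_finsetSum _ fun k _ => hint _ (by fun_prop),
        Finset.mul_sum]
      simp only [Matrix.trace, Matrix.diag, Matrix.mul_apply, hSapp]
      refine Finset.sum_congr rfl fun j _ => ?_
      rw [integral_finsetSum _ fun k _ => hint _ (by fun_prop), Finset.mul_sum]
      exact Finset.sum_congr rfl fun k _ => by rw [integral_const_mul]; ring
    have h1 := setIntegral_mono_on
      (hint (fun y => ∑ j, y j * (P *ᵥ y) j) (by simp only [Matrix.mulVec, dotProduct]; fun_prop))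
      (hint (fun y => G y / (p * s ^ (p - 1)) + (1 - 1 / p) * s)
        ((hGc.div_const _).add continuous_const)) hKc.measurableSet hpt
    rw [integral_add (hint _ (hGc.div_const _)) (hint _ continuous_const), integral_div,
      setIntegral_const, smul_eq_mul, Measure.real, ← hVdef] at h1
    have h2 := mul_le_mul_of_nonneg_left h1 (inv_nonneg.2 hV.le)
    rw [hxPx, htr] at h2
    refine h2.trans ?_
    rw [mul_add, ← mul_assoc V⁻¹ V, inv_mul_cancel₀ hV.ne', one_mul, ← mul_div_assoc]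
    have hs1 : 0 < s ^ (p - 1) := Real.rpow_pos_of_pos hs0 _
    have hsp : c * n = s ^ (p - 1) * s := by
      rw [← Real.rpow_add_one hs0.ne', sub_add_cancel, hs, one_div,
        Real.rpow_inv_rpow (by positivity) hp0.ne']
    calc V⁻¹ * (∫ y in K, G y) / (p * s ^ (p - 1)) + (1 - 1 / p) * s
        ≤ (s ^ (p - 1) * s) / (p * s ^ (p - 1)) + (1 - 1 / p) * s := by
          rw [← hsp]; gcongr
      _ = s := by field_simp; ring
  have hdet : S.det ≤ (s / n) ^ (2 * n) := by
    have h1 : S.det = (∏ k, √(l k)) ^ 2 := by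
      rw [hSp.1.det_eq_prod_eigenvalues, ← Finset.prod_pow]
      exact Finset.prod_congr rfl fun k _ => (Real.sq_sqrt (hlpos k).le).symm
    have h2 : (∏ k, √(l k)) ^ ((1 : ℝ) / n) ≤ s / n := by
      have h := Real.geom_mean_le_arith_mean_weighted Finset.univ (fun _ : Fin n => (1 : ℝ) / n)
        (fun k => √(l k)) (fun k _ => by positivity) (by simp [Finset.sum_const]; field_simp)
        (fun k _ => Real.sqrt_nonneg _)
      rw [Real.finsetProd_rpow _ _ fun k _ => Real.sqrt_nonneg _, ← Finset.mul_sum] at h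
      refine h.trans ?_
      rw [div_mul_eq_mul_div, one_mul]
      exact div_le_div_of_nonneg_right htrace hn0.le
    have h3 := pow_le_pow_left₀ (Real.rpow_nonneg (Finset.prod_nonneg fun k _ => Real.sqrt_nonneg _) _)
      h2 n
    rw [one_div, Real.rpow_inv_natCast_pow (Finset.prod_nonneg fun k _ => Real.sqrt_nonneg _)
      (by omega)] at h3
    rw [h1, mul_comm 2 n, pow_mul]
    exact pow_le_pow_left₀ (Finset.prod_nonneg fun k _ => Real.sqrt_nonneg _) h3 2
  -- the volume bound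
  have hvol := hP n N b p q (by omega) hpq hb hframe
  rw [← hK, ← hVdef] at hvol
  set C0 := (2 * Real.pi * Real.exp 1) ^ ((n : ℝ) / 2) with hC0
  have hC0pos : 0 < C0 := by positivity
  have hmain : S.det * C0 ^ 2 ≤
      (c ^ (1 / p) * gm q ^ (1 / q)) ^ (2 * n) * (Real.exp 1 * ((n : ℝ) + 1)) ^ 2 * V ^ 2 := by
    have e : (s / n) ^ (2 * n) * ((gm q * n) ^ ((n : ℝ) / q)) ^ 2
        = (c ^ (1 / p) * gm q ^ (1 / q)) ^ (2 * n) := by
      have hsn : s / n = c ^ (1 / p) * ((n : ℝ) ^ (1 / q))⁻¹ := by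
        rw [hs, Real.mul_rpow hc.le hn0.le, div_eq_mul_inv, mul_assoc, ← Real.rpow_neg hn0.le,
          show ((n : ℝ))⁻¹ = (n : ℝ) ^ (-1 : ℝ) from (Real.rpow_neg_one _).symm,
          ← Real.rpow_add hn0]
        congr 2
        have := hpq.inv_add_inv_eq_one
        rw [one_div, one_div]
        linarith
      have hpow : ((gm q * n) ^ ((n : ℝ) / q)) ^ 2 = ((gm q * n) ^ (1 / q)) ^ (2 * n) := by
        rw [← Real.rpow_natCast, ← Real.rpow_natCast, ← Real.rpow_mul (by positivity),
          ← Real.rpow_mul (by positivity)]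
        push_cast
        ring_nf
      rw [hsn, hpow, ← mul_pow, Real.mul_rpow hgq.le hn0.le]
      congr 1
      have : (0 : ℝ) < (n : ℝ) ^ (1 / q) := Real.rpow_pos_of_pos hn0 _
      field_simp
    calc S.det * C0 ^ 2 ≤ (s / n) ^ (2 * n) *
          (Real.exp 1 * ((n : ℝ) + 1) * (gm q * n) ^ ((n : ℝ) / q) * V) ^ 2 :=
          mul_le_mul hdet (pow_le_pow_left₀ hC0pos.le hvol 2) (sq_nonneg _) (by positivity)
      _ = (s / n) ^ (2 * n) * ((gm q * n) ^ ((n : ℝ) / q)) ^ 2 *
          (Real.exp 1 * ((n : ℝ) + 1)) ^ 2 * V ^ 2 := by ring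
      _ = _ := by rw [e]
  have hr0 : 0 ≤ c ^ (1 / p) * gm q ^ (1 / q) := by positivity
  have hC2 : C0 ^ 2 = (2 * Real.pi * Real.exp 1) ^ n := by
    rw [hC0, ← Real.rpow_natCast, ← Real.rpow_mul (by positivity)]
    push_cast
    rw [show (n : ℝ) / 2 * 2 = n by ring, Real.rpow_natCast]
  have he2 : Real.exp 1 ^ 2 ≤ 7.39 := by nlinarith [Real.exp_one_lt_d9, Real.exp_pos 1]
  have hq2 : (145 / 100 : ℝ) ^ 2 * 1.0724 ≤ 2 / 15 * (2 * Real.pi * Real.exp 1) := by
    nlinarith [Real.pi_gt_d4, Real.exp_one_gt_d9]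
  refine ⟨div_nonneg hSp.det_pos.le (sq_nonneg _), ?_⟩
  rw [div_lt_iff₀ (pow_pos hV 2)]
  refine lt_of_mul_lt_mul_right ?_ (pow_nonneg hC0pos.le 2)
  calc S.det * C0 ^ 2 ≤ _ := hmain
    _ ≤ ((145 / 100 : ℝ) ^ 2) ^ n * (7.39 * ((n : ℝ) + 1) ^ 2) * V ^ 2 := by
        rw [pow_mul, mul_pow (Real.exp 1)]
        gcongr
    _ < ((145 / 100 : ℝ) ^ 2) ^ n * (1.0724 : ℝ) ^ n * V ^ 2 := by
        gcongr
        exact LpSub.growth n hn
    _ ≤ (2 / 15 * (2 * Real.pi * Real.exp 1)) ^ n * V ^ 2 := by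
        rw [← mul_pow]
        gcongr
    _ = _ := by rw [hC2, mul_pow (2 / 15 : ℝ)]; ring

/-- The bound for finitely many functionals. -/
lemma finite_case (hL : P248.LpMahler.Lewis) (hM : MomentLow) (hF : FourthMoment) (hP : PolarVolume)
    (hN : QuotNumeric) (hn : 200 ≤ n) (a : Fin N → Fin n → ℝ) {p : ℝ} (hp : 6 / 5 ≤ p)
    (hp' : p ≤ 4) (hb : Bornology.IsBounded (lpBody a p)) :
    isoConst (P248.polarBody (lpBody a p)) ≤ Real.sqrt (2 / 15) := by
  obtain ⟨T, hT, hframe⟩ := hL n N a p (by omega) (by linarith) hb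
  set b : Fin N → Fin n → ℝ := fun i => vecMul (a i) T with hbdef
  set A := Matrix.toLin' T with hA
  have hTT := Matrix.isUnit_det_transpose T hT
  set B : (Fin n → ℝ) ≃ᵃ[ℝ] (Fin n → ℝ) :=
    (Matrix.toLinearEquiv' Tᵀ ((Matrix.isUnit_iff_isUnit_det Tᵀ).2 hTT).invertible).toAffineEquiv
  have hBx : ∀ x, B x = Tᵀ *ᵥ x := fun x => rfl
  have key : ∀ x i, ∑ j, b i j * x j = ∑ j, a i j * A x j := fun x i => by
    simpa [hbdef, hA, dotProduct] using (Matrix.dotProduct_mulVec (a i) T x).symm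
  have hmem : ∀ x, x ∈ lpBody b p ↔ A x ∈ lpBody a p := fun x => by
    show _ ≤ (1 : ℝ) ↔ _ ≤ (1 : ℝ)
    simp only [key]
  have hinvmem : ∀ y ∈ lpBody a p, T⁻¹ *ᵥ y ∈ lpBody b p ∧ A (T⁻¹ *ᵥ y) = y := fun y hy => by
    have : A (T⁻¹ *ᵥ y) = y := by
      rw [hA, Matrix.toLin'_apply, Matrix.mulVec_mulVec, Matrix.mul_nonsing_inv _ hT,
        Matrix.one_mulVec]
    exact ⟨(hmem _).2 (by rw [this]; exact hy), this⟩
  have hbb : Bornology.IsBounded (lpBody b p) := by
    have hsub : lpBody b p ⊆ Matrix.toLin' T⁻¹ '' closure (lpBody a p) := fun x hx =>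
      ⟨A x, subset_closure ((hmem x).1 hx), by
        simp [hA, Matrix.mulVec_mulVec, Matrix.nonsing_inv_mul _ hT]⟩
    exact ((Metric.isCompact_of_isClosed_isBounded isClosed_closure hb.closure).image
      (Matrix.toLin' T⁻¹).continuous_of_finiteDimensional).isBounded.subset hsub
  have hdot : ∀ w x : Fin n → ℝ, ∑ j, (Tᵀ *ᵥ w) j * x j = ∑ j, w j * A x j := fun w x => by
    have h1 := (Matrix.dotProduct_mulVec w T x).symm
    rw [← Matrix.mulVec_transpose] at h1
    simpa [hA, dotProduct] using h1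
  have hpol : P248.polarBody (lpBody b p) = B '' P248.polarBody (lpBody a p) := by
    ext y
    constructor
    · intro hy
      refine ⟨B.symm y, fun z hz => ?_, B.apply_symm_apply y⟩
      obtain ⟨h1, h2⟩ := hinvmem z hz
      have h := hy _ h1
      rwa [← B.apply_symm_apply y, hBx, hdot, h2] at h
    · rintro ⟨w, hw, rfl⟩ x hx
      rw [hBx, hdot]
      exact hw _ ((hmem x).1 hx)
  have hpb := lpBody_polar_bounded a (show 0 < p by linarith)
  have hcb := Metric.isCompact_of_isClosed_isBounded (polar_closed _) hpb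
  rw [← isoConst_affine B hcb (polar_volume_pos hb hpb), ← hpol]
  obtain ⟨h0, hle⟩ := core hM hF hP hN hn b hp hp' hbb hframe
  have hn0 : (0 : ℝ) < n := by exact_mod_cast (show 0 < n by omega)
  rw [isoConst]
  calc _ ≤ ((2 / 15 : ℝ) ^ n) ^ ((1 : ℝ) / (2 * n)) := Real.rpow_le_rpow h0 hle.le (by positivity)
    _ = Real.sqrt (2 / 15) := by
        rw [← Real.rpow_natCast, ← Real.rpow_mul (by norm_num), Real.sqrt_eq_rpow]
        congr 1
        field_simp

end Vale.Agent.P254.LqQuot
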