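import Vale.Agent.P254.LpSub.Pins
import Vale.Agent.P248.LpMahler.Pins

/-!
P254, quotients of `L_q`: the statements exchanged between the blocks of the proof that polars of
unit balls of finite dimensional subspaces of `L_p`, `6/5 ≤ p ≤ 4`, satisfy the strong isotropic
constant inequality in high dimension.
-/

noncomputable section

open MeasureTheory Set

namespace Vale.Agent.P254.LqQuot

open Vale.Agent.P254.LpSub

/-- The even unimodal marginals have moments of order `p ≤ 2` at most those of a uniform law. -/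
def MomentLow : Prop := ∀ (n : ℕ) (K : Set (Fin n → ℝ)) (w : Fin n → ℝ) (p : ℝ), IsCompact K →
  Convex ℝ K → (∀ x ∈ K, -x ∈ K) → 0 < (volume K).toReal → 1 ≤ p → p ≤ 2 →
  (p + 1) * ((volume K).toReal⁻¹ * ∫ x in K, |∑ j, w j * x j| ^ p) ≤
    (3 * ((volume K).toReal⁻¹ * ∫ x in K, (∑ j, w j * x j) ^ 2)) ^ (p / 2)

/-- The fourth moment of a marginal is at most six times the square of the second one. -/
def FourthMoment : Prop := ∀ (n : ℕ) (K : Set (Fin n → ℝ)) (w : Fin n → ℝ), IsCompact K →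
  Convex ℝ K → (∀ x ∈ K, -x ∈ K) →
  (volume K).toReal * ∫ x in K, (∑ j, w j * x j) ^ 4 ≤ 6 * (∫ x in K, (∑ j, w j * x j) ^ 2) ^ 2

/-- In Lewis position the polar has a Gaussian lower bound for its volume. -/
def PolarVolume : Prop := ∀ (n N : ℕ) (b : Fin N → Fin n → ℝ) (p q : ℝ), 0 < n →
  p.HolderConjugate q → Bornology.IsBounded (lpBody b p) →
  (∀ j k, ∑ i, √(∑ l, b i l ^ 2) ^ (p - 2) * (b i j * b i k) = if j = k then 1 else 0) →
  (2 * Real.pi * Real.exp 1) ^ ((n : ℝ) / 2) ≤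
    Real.exp 1 * ((n : ℝ) + 1) * (gm q * n) ^ ((n : ℝ) / q) *
      (volume (P248.polarBody (lpBody b p))).toReal

/-- The numerical bounds. -/
def QuotNumeric : Prop := ∀ p q : ℝ, p.HolderConjugate q →
  (6 / 5 ≤ p → p ≤ 2 →
    ((3 : ℝ) ^ (p / 2) / (p + 1)) ^ (1 / p) * gm q ^ (1 / q) ≤ 145 / 100) ∧
  (2 ≤ p → p ≤ 4 → ((6 : ℝ) ^ ((p - 2) / 2)) ^ (1 / p) * gm q ^ (1 / q) ≤ 145 / 100)

end Vale.Agent.P254.LqQuot
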