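import Mathlib
import Vale.Agent.P254.LqQuot.Pins
import Vale.Agent.P254.LpSub.Numeric

/-!
P254, quotients of `L_q`: the numerical bounds, by geometric interpolation between integer orders.
-/

noncomputable section

namespace Vale.Agent.P254.LqQuot

open Vale.Agent.P254.LpSub

namespace NumAux

/-- A geometric bound on the ends of an interval is inherited by the interval. -/
lemma rpow_le_affine {c a b p : ℝ} (hc : 0 < c) (hap : a ≤ p) (hpb : p ≤ b) (hab : a < b)
    (h1 : c ^ (a / 2) ≤ a + 1) (h2 : c ^ (b / 2) ≤ b + 1) : c ^ (p / 2) ≤ p + 1 := by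
  set s := (p - a) / (b - a) with hs
  have hs0 : 0 ≤ s := div_nonneg (by linarith) (by linarith)
  have hs1 : s ≤ 1 := by rw [hs, div_le_one (by linarith)]; linarith
  have hp : p = (1 - s) * a + s * b := by
    rw [hs]; field_simp [(by linarith : b - a ≠ 0)]; ring
  have h := Real.geom_mean_le_arith_mean2_weighted (w₁ := 1 - s) (w₂ := s) (by linarith) hs0
    (Real.rpow_nonneg hc.le (a / 2)) (Real.rpow_nonneg hc.le (b / 2)) (by ring)
  rw [← Real.rpow_mul hc.le, ← Real.rpow_mul hc.le, ← Real.rpow_add hc,
    show a / 2 * (1 - s) + b / 2 * s = p / 2 by rw [hp]; ring] at h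
  have t1 := mul_le_mul_of_nonneg_left h1 (show (0 : ℝ) ≤ 1 - s by linarith)
  have t2 := mul_le_mul_of_nonneg_left h2 hs0
  rw [hp]
  rw [hp] at h
  linarith

/-- The normalised moments for orders between two integers. -/
lemma gm_root_le {a b q c : ℝ} (ha : 0 ≤ a) (haq : a ≤ q) (hqb : q ≤ b) (hab : a < b) (hq : 0 < q)
    (hc : 0 < c) (h1 : c * gm a ≤ c ^ (a / 2)) (h2 : c * gm b ≤ c ^ (b / 2)) :
    gm q ^ (1 / q) ≤ c ^ (1 / 2 - 1 / q) := by
  have h := gm_interp ha haq hqb hab hc hc h1 h2
  have hg : gm q ≤ c ^ (q / 2 - 1) := by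
    rw [Real.rpow_sub_one hc.ne', le_div_iff₀ hc]
    linarith
  refine (Real.rpow_le_rpow (gm_pos hq.le).le hg (by positivity)).trans (le_of_eq ?_)
  rw [← Real.rpow_mul hc.le]
  congr 1
  field_simp

end NumAux

open NumAux

/-- The numerical bounds of the pins. -/
theorem quotNumeric : QuotNumeric := by
  intro p q h
  have hp0 : 0 < p := h.pos
  have hq0 : 0 < q := h.symm.pos
  have hsum : 1 / p + 1 / q = 1 := by simpa [one_div] using h.inv_add_inv_eq_one
  have g2 : gm 2 = 1 := by simpa [gm_zero] using gm_even 0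
  have g4 : gm 4 = 3 := by
    have := gm_even 1
    norm_num [g2] at this ⊢
    linarith
  have g6 : gm 6 = 15 := by
    have := gm_even 2
    norm_num [g4] at this ⊢
    linarith
  constructor
  · intro h65 h2
    have hq2 : 2 ≤ q := by
      have := one_div_le_one_div_of_le hp0 h2
      exact (one_div_le_one_div hq0 two_pos).1 (by linarith)
    rcases le_total p (4 / 3) with h43 | h43
    · have hq6 : q ≤ 6 := by
        have := one_div_le_one_div_of_le (show (0 : ℝ) < 6 / 5 by norm_num) h65
        rw [one_div_div] at this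
        exact (one_div_le_one_div (by norm_num) hq0).1 (by linarith)
      have hC : ((3 : ℝ) ^ (p / 2) / (p + 1)) ^ (1 / p) ≤ 92 / 100 := by
        have hd : (355 / 100 : ℝ) ^ (p / 2) ≤ p + 1 := by
          refine rpow_le_affine (by norm_num) h65 h43 (by norm_num) ?_ ?_
          · rw [← pow_le_pow_iff_left₀ (by positivity) (by norm_num) (show (5 : ℕ) ≠ 0 by norm_num),
              ← Real.rpow_mul_natCast (by norm_num),
              show (6 / 5 : ℝ) / 2 * ((5 : ℕ) : ℝ) = ((3 : ℕ) : ℝ) by norm_num, Real.rpow_natCast]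
            norm_num
          · rw [← pow_le_pow_iff_left₀ (by positivity) (by norm_num) (show (3 : ℕ) ≠ 0 by norm_num),
              ← Real.rpow_mul_natCast (by norm_num),
              show (4 / 3 : ℝ) / 2 * ((3 : ℕ) : ℝ) = ((2 : ℕ) : ℝ) by norm_num, Real.rpow_natCast]
            norm_num
        have hle : (3 : ℝ) ^ (p / 2) / (p + 1) ≤ (92 / 100 : ℝ) ^ p := by
          rw [div_le_iff₀ (by linarith)]
          refine le_trans ?_ (mul_le_mul_of_nonneg_left hd (by positivity))
          rw [show (92 / 100 : ℝ) ^ p = ((92 / 100 : ℝ) ^ 2) ^ (p / 2) by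
            rw [← Real.rpow_natCast_mul (by norm_num)]; congr 1; push_cast; ring,
            ← Real.mul_rpow (by norm_num) (by norm_num)]
          exact Real.rpow_le_rpow (by norm_num) (by norm_num) (by linarith)
        refine (Real.rpow_le_rpow (by positivity) hle (by positivity)).trans (le_of_eq ?_)
        rw [← Real.rpow_mul (by norm_num), mul_one_div_cancel hp0.ne', Real.rpow_one]
      have hG := gm_root_le (c := 388 / 100) two_pos.le hq2 hq6 (by norm_num) hq0 (by norm_num)
        (by norm_num [g2]) (by rw [g6]; norm_num)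
      have hG' : gm q ^ (1 / q) ≤ 1575 / 1000 := by
        refine (hG.trans (Real.rpow_le_rpow_of_exponent_le (by norm_num)
          (show 1 / 2 - 1 / q ≤ 1 / 3 from ?_))).trans ?_
        · have := one_div_le_one_div_of_le hq0 hq6
          linarith
        rw [← pow_le_pow_iff_left₀ (by positivity) (by norm_num) (show (3 : ℕ) ≠ 0 by norm_num),
          ← Real.rpow_mul_natCast (by norm_num)]
        norm_num
      exact (mul_le_mul hC hG' (Real.rpow_nonneg (gm_pos hq0.le).le _) (by norm_num)).trans
        (by norm_num)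
    · have hq4 : q ≤ 4 := by
        have := one_div_le_one_div_of_le (show (0 : ℝ) < 4 / 3 by norm_num) h43
        rw [one_div_div] at this
        exact (one_div_le_one_div (by norm_num) hq0).1 (by linarith)
      have hC : ((3 : ℝ) ^ (p / 2) / (p + 1)) ^ (1 / p) ≤ 1 := by
        refine Real.rpow_le_one (by positivity) ((div_le_one (by linarith)).2 ?_) (by positivity)
        refine rpow_le_affine three_pos h43 h2 (by norm_num) ?_ (by norm_num)
        rw [← pow_le_pow_iff_left₀ (by positivity) (by norm_num) (show (3 : ℕ) ≠ 0 by norm_num),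
          ← Real.rpow_mul_natCast (by norm_num),
          show (4 / 3 : ℝ) / 2 * ((3 : ℕ) : ℝ) = ((2 : ℕ) : ℝ) by norm_num, Real.rpow_natCast]
        norm_num
      have hG := gm_root_le (c := 3) two_pos.le hq2 hq4 (by norm_num) hq0 three_pos
        (by norm_num [g2]) (by rw [g4]; norm_num)
      have hG' : gm q ^ (1 / q) ≤ 145 / 100 := by
        refine (hG.trans (Real.rpow_le_rpow_of_exponent_le (by norm_num)
          (show 1 / 2 - 1 / q ≤ 1 / 4 from ?_))).trans ?_
        · have := one_div_le_one_div_of_le hq0 hq4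
          linarith
        rw [← pow_le_pow_iff_left₀ (by positivity) (by norm_num) (show (4 : ℕ) ≠ 0 by norm_num),
          ← Real.rpow_mul_natCast (by norm_num)]
        norm_num
      exact (mul_le_mul hC hG' (Real.rpow_nonneg (gm_pos hq0.le).le _) zero_le_one).trans
        (by norm_num)
  · intro h2 h4
    have hq1 : 1 ≤ q := h.symm.lt.le
    have hq2 : q ≤ 2 := by
      have := one_div_le_one_div_of_le two_pos h2
      exact (one_div_le_one_div two_pos hq0).1 (by linarith)
    have hK1 : 157 / 100 * gm 1 ≤ (157 / 100 : ℝ) ^ ((1 : ℝ) / 2) := by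
      have hG : gm 1 = √(2 / Real.pi) := by
        rw [Real.sqrt_div two_pos.le]
        unfold gm
        norm_num [Real.sqrt_eq_rpow]
      rw [hG, ← Real.sqrt_eq_rpow]
      calc 157 / 100 * √(2 / Real.pi) = √((157 / 100) ^ 2 * (2 / Real.pi)) := by
            rw [Real.sqrt_mul (sq_nonneg _), Real.sqrt_sq (by norm_num)]
        _ ≤ √(157 / 100) := by
            refine Real.sqrt_le_sqrt ?_
            rw [mul_div_assoc', div_le_iff₀ Real.pi_pos]
            nlinarith [Real.pi_gt_d2]
    have hG := gm_root_le (c := 157 / 100) zero_le_one hq1 hq2 one_lt_two hq0 (by norm_num) hK1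
      (by norm_num [g2])
    have hC : ((6 : ℝ) ^ ((p - 2) / 2)) ^ (1 / p) = 6 ^ (1 / 2 - 1 / p) := by
      rw [← Real.rpow_mul (by norm_num)]
      congr 1
      field_simp
    rw [hC]
    refine (mul_le_mul_of_nonneg_left hG (by positivity)).trans ?_
    rw [show 1 / 2 - 1 / q = -(1 / 2 - 1 / p) by linarith, Real.rpow_neg (by norm_num),
      ← div_eq_mul_inv, ← Real.div_rpow (by norm_num) (by norm_num)]
    refine (Real.rpow_le_rpow_of_exponent_le (by norm_num)
      (show 1 / 2 - 1 / p ≤ 1 / 4 from ?_)).trans ?_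
    · have := one_div_le_one_div_of_le hp0 h4
      linarith
    rw [← pow_le_pow_iff_left₀ (by positivity) (by norm_num) (show (4 : ℕ) ≠ 0 by norm_num),
      ← Real.rpow_mul_natCast (by norm_num)]
    norm_num

end Vale.Agent.P254.LqQuot
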