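import Vale.Agent.P254.LqQuot.Pins
import Vale.Agent.P254.LpSub.VolumeLower
import Vale.Agent.P254.LpSub.GaussMoment
import Vale.Agent.P254.LpSub.Numeric

/-!
P254, quotients of `L_q`: in Lewis position the polar has a Gaussian lower bound for its volume.
-/

noncomputable section

open MeasureTheory Set

namespace Vale.Agent.P254.LqQuot

open Vale.Agent.P254.LpSub

variable {n N : ℕ}

/-- One body whose vectors have `p`-th powers of lengths summing to `n`. -/
private lemma volume_one (hn : 0 < n) (a : Fin N → Fin n → ℝ) {p : ℝ} (hp : 1 ≤ p)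
    (hb : Bornology.IsBounded (lpBody a p)) (hsum : ∑ i, √(∑ j, a i j ^ 2) ^ p = (n : ℝ)) :
    (2 * Real.pi * Real.exp 1) ^ ((n : ℝ) / 2) ≤
      Real.exp 1 * ((n : ℝ) + 1) * (gm p * n) ^ ((n : ℝ) / p) * (volume (lpBody a p)).toReal := by
  have hp0 : 0 < p := by linarith
  have hnR : (0 : ℝ) < n := by exact_mod_cast hn
  have hM : 0 < gm p * n := mul_pos (gm_pos hp0.le) hnR
  have h := volumeLower gaussMoment n N a p (gm p * n) hn hp hb hM (le_of_eq (by rw [hsum]))
  set m := (n : ℝ) / p with hm
  have hm0 : 0 < m := div_pos hnR hp0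
  have hmn : m ≤ n := div_le_self hnR.le hp
  set V := (volume (lpBody a p)).toReal
  have hV : 0 ≤ V := ENNReal.toReal_nonneg
  have e1 : (m / (gm p * n)) ^ m * Real.exp (-m) = (m / Real.exp 1) ^ m / (gm p * n) ^ m := by
    rw [Real.div_rpow hm0.le hM.le, Real.div_rpow hm0.le (Real.exp_pos 1).le, Real.exp_one_rpow,
      Real.exp_neg]
    ring
  rw [mul_assoc, e1] at h
  have hW : (0 : ℝ) < (m / Real.exp 1) ^ m := Real.rpow_pos_of_pos (div_pos hm0 (Real.exp_pos 1)) _
  have hMm : (0 : ℝ) < (gm p * n) ^ m := Real.rpow_pos_of_pos hM _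
  have h2 := h.trans (mul_le_mul_of_nonneg_right (gammaUpper m hm0) hV)
  rw [← mul_div_assoc, div_le_iff₀ hMm] at h2
  have h3 : (2 * Real.pi * Real.exp 1) ^ ((n : ℝ) / 2) ≤
      Real.exp 1 * (m + 1) * (gm p * n) ^ m * V := by
    refine le_of_mul_le_mul_right ?_ hW
    linarith
  refine h3.trans ?_
  gcongr

/-- The lengths in the dual family. -/
private lemma dual_length (v : Fin n → ℝ) {p q : ℝ} (hpq : p.HolderConjugate q) :
    √(∑ j, (√(∑ l, v l ^ 2) ^ (p - 2) * v j) ^ 2) ^ q = √(∑ l, v l ^ 2) ^ p := by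
  set s := √(∑ l, v l ^ 2) with hs
  have hs0 : 0 ≤ s := Real.sqrt_nonneg _
  simp only [mul_pow, ← Finset.mul_sum]
  rw [Real.sqrt_mul (sq_nonneg _), Real.sqrt_sq (Real.rpow_nonneg hs0 _), ← hs]
  rcases hs0.eq_or_lt with h0 | h0
  · rw [← h0, mul_zero, Real.zero_rpow hpq.symm.ne_zero, Real.zero_rpow hpq.ne_zero]
  · rw [← Real.rpow_add_one h0.ne', ← Real.rpow_mul hs0, show p - 2 + 1 = p - 1 by ring,
      hpq.sub_one_mul_conj]

/-- In Lewis position the polar has a Gaussian lower bound for its volume. -/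
theorem polarVolume : PolarVolume := by
  intro n N b p q hn hpq hb hF
  have hp : 1 < p := hpq.lt
  have hq : 1 < q := hpq.symm.lt
  set w : Fin N → ℝ := fun i => √(∑ l, b i l ^ 2) ^ (p - 2) with hw
  set b2 : Fin N → Fin n → ℝ := fun i j => w i * b i j with hb2
  have hrec : ∀ (y : Fin n → ℝ) (j), y j = ∑ i, b i j * ∑ k, b2 i k * y k := by
    intro y j
    calc y j = ∑ k, (if j = k then 1 else 0) * y k := by simp
      _ = ∑ k, ∑ i, w i * (b i j * b i k) * y k := by
          simp only [← hF, Finset.sum_mul, hw]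
      _ = _ := by
          rw [Finset.sum_comm]
          refine Finset.sum_congr rfl fun i _ => ?_
          rw [Finset.mul_sum]
          exact Finset.sum_congr rfl fun k _ => by simp only [hb2]; ring
  have hsub : lpBody b2 q ⊆ P248.polarBody (lpBody b p) := by
    intro y hy x hx
    have e : ∑ j, y j * x j = ∑ i, (∑ j, b i j * x j) * ∑ k, b2 i k * y k := by
      calc ∑ j, y j * x j = ∑ j, ∑ i, (b i j * x j) * ∑ k, b2 i k * y k := by
            refine Finset.sum_congr rfl fun j _ => ?_
            rw [hrec y j, Finset.sum_mul]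
            exact Finset.sum_congr rfl fun i _ => by ring
        _ = _ := by rw [Finset.sum_comm]; simp only [Finset.sum_mul]
    rw [e]
    refine (Real.inner_le_Lp_mul_Lq _ _ _ hpq).trans (mul_le_one₀ ?_ (by positivity) ?_)
    · exact Real.rpow_le_one (Finset.sum_nonneg fun i _ => by positivity) hx
        (one_div_nonneg.2 (by linarith))
    · exact Real.rpow_le_one (Finset.sum_nonneg fun i _ => by positivity) hy
        (one_div_nonneg.2 (by linarith))
  have hpolar : Bornology.IsBounded (P248.polarBody (lpBody b p)) := by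
    have hc : Continuous fun x : Fin n → ℝ => ∑ i, |∑ j, b i j * x j| ^ p :=
      continuous_finsetSum _ fun i _ =>
        Continuous.rpow_const (by fun_prop) fun x => Or.inr (by linarith)
    have h0 : ∀ᶠ x in nhds (0 : Fin n → ℝ), ∑ i, |∑ j, b i j * x j| ^ p < 1 :=
      hc.tendsto 0 |>.eventually (gt_mem_nhds (by simp [Real.zero_rpow hpq.ne_zero]))
    obtain ⟨r, hr, hball⟩ := Metric.eventually_nhds_iff.1 h0
    refine (isBounded_iff_forall_norm_le).2 ⟨2 / r, fun y hy => ?_⟩
    refine (pi_norm_le_iff_of_nonneg (by positivity)).2 fun j => ?_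
    have key : ∀ t : ℝ, |t| < r → y j * t ≤ 1 := fun t ht => by
      have hmem : Pi.single (M := fun _ => ℝ) j t ∈ lpBody b p :=
        (hball (by
          rw [dist_zero_right, pi_norm_lt_iff hr]
          intro l
          by_cases hl : l = j
          · subst hl; simpa using ht
          · simpa [hl] using hr)).le
      have := hy _ hmem
      simpa [Pi.single_apply] using this
    have h1 := key (r / 2) (by rw [abs_of_pos (by positivity)]; linarith)
    have h2 := key (-(r / 2)) (by rw [abs_neg, abs_of_pos (by positivity)]; linarith)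
    rw [Real.norm_eq_abs, abs_le, le_div_iff₀ hr, ← neg_div, div_le_iff₀ hr]
    constructor <;> linarith
  have hsp : ∑ i, √(∑ j, b i j ^ 2) ^ p = (n : ℝ) := by
    have hterm : ∀ i, √(∑ j, b i j ^ 2) ^ p = ∑ j, w i * (b i j * b i j) := by
      intro i
      have hnn : 0 ≤ ∑ j, b i j ^ 2 := Finset.sum_nonneg fun j _ => sq_nonneg _
      rw [← Finset.mul_sum]
      simp only [← sq, hw]
      conv_rhs => arg 2; rw [← Real.sq_sqrt hnn]
      rcases (Real.sqrt_nonneg (∑ j, b i j ^ 2)).eq_or_lt with h0 | h0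
      · rw [← h0, Real.zero_rpow hpq.ne_zero]; simp
      · rw [← Real.rpow_natCast _ 2, ← Real.rpow_add h0]
        congr 1; push_cast; ring
    simp only [hterm]
    rw [Finset.sum_comm]
    simp only [hw, hF]
    simp
  have hsq : ∑ i, √(∑ j, b2 i j ^ 2) ^ q = (n : ℝ) := by
    rw [← hsp]
    exact Finset.sum_congr rfl fun i _ => dual_length (b i) hpq
  refine (volume_one hn b2 hq.le (hpolar.subset hsub) hsq).trans
    (mul_le_mul_of_nonneg_left (ENNReal.toReal_mono hpolar.measure_lt_top.ne (measure_mono hsub)) ?_)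
  have := gm_pos (show (0 : ℝ) ≤ q by linarith)
  positivity

end Vale.Agent.P254.LqQuot
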